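import Vale.Agent.P048.H9.Deg

namespace Vale.Agent.Results.P048.BeyondDiagonal

/-- The identity `R(C_m, K_n) = (m - 1) (n - 1) + 1`:
(1) for `m ≥ n ≥ 3` it holds exactly for the pairs other than `(3, 3)`;
(2) it holds beyond the diagonal, for all `m ≥ 63` and `1 ≤ n ≤ 3 m / 2`;
(3) for all `m ≥ 200` and `1 ≤ n ≤ m ^ 2 / 4`;
(4) for all `t ≥ 2`, `m ≥ 350 t ^ 2` and `1 ≤ n ≤ (1 - 1 / t) m ^ 2`;
(5) for all `D ≥ 1`, `m ≥ 200 D ^ 4` and `1 ≤ n ≤ (m / 2) ^ D`;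
(6) for all `m ≥ 256` and `n ≥ 1` with `(6 ⌈log₂ n⌉) ^ 3 ≤ m ⌊log₂ m⌋ ^ 2`. -/
theorem result :
    (∀ m n : ℕ, 3 ≤ n → n ≤ m →
      (IsLeast {N : ℕ | ∀ G : SimpleGraph (Fin N),
        (SimpleGraph.cycleGraph m).IsContained G ∨ ∃ s : Finset (Fin N), G.IsNIndepSet n s}
        ((m - 1) * (n - 1) + 1) ↔ ¬ (m = 3 ∧ n = 3))) ∧
    (∀ m n : ℕ, 63 ≤ m → 1 ≤ n → 2 * n ≤ 3 * m →
      IsLeast {N : ℕ | ∀ G : SimpleGraph (Fin N),
        (SimpleGraph.cycleGraph m).IsContained G ∨ ∃ s : Finset (Fin N), G.IsNIndepSet n s}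
        ((m - 1) * (n - 1) + 1)) ∧
    (∀ m n : ℕ, 200 ≤ m → 1 ≤ n → 4 * n ≤ m ^ 2 →
      IsLeast {N : ℕ | ∀ G : SimpleGraph (Fin N),
        (SimpleGraph.cycleGraph m).IsContained G ∨ ∃ s : Finset (Fin N), G.IsNIndepSet n s}
        ((m - 1) * (n - 1) + 1)) ∧
    (∀ t m n : ℕ, 2 ≤ t → 350 * t ^ 2 ≤ m → 1 ≤ n → t * n ≤ (t - 1) * m ^ 2 →
      IsLeast {N : ℕ | ∀ G : SimpleGraph (Fin N),
        (SimpleGraph.cycleGraph m).IsContained G ∨ ∃ s : Finset (Fin N), G.IsNIndepSet n s}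
        ((m - 1) * (n - 1) + 1)) ∧
    (∀ D m n : ℕ, 1 ≤ D → 200 * D ^ 4 ≤ m → 1 ≤ n → 2 ^ D * n ≤ m ^ D →
      IsLeast {N : ℕ | ∀ G : SimpleGraph (Fin N),
        (SimpleGraph.cycleGraph m).IsContained G ∨ ∃ s : Finset (Fin N), G.IsNIndepSet n s}
        ((m - 1) * (n - 1) + 1)) ∧
    (∀ m n : ℕ, 256 ≤ m → 1 ≤ n → (6 * Nat.clog 2 n) ^ 3 ≤ m * (Nat.log 2 m) ^ 2 →
      IsLeast {N : ℕ | ∀ G : SimpleGraph (Fin N),
        (SimpleGraph.cycleGraph m).IsContained G ∨ ∃ s : Finset (Fin N), G.IsNIndepSet n s}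
        ((m - 1) * (n - 1) + 1)) := by
  refine ⟨?_, ?_, ?_, ?_, ?_, ?_⟩
  · intro m n hn hnm
    constructor
    · rintro h ⟨rfl, rfl⟩
      exact Vale.Agent.P048.not_three_three h
    · intro h
      exact Vale.Agent.P048.all_range m n (by omega) hnm (by omega)
  · intro m n hm hn hnm
    exact Vale.Agent.P048.H9.lin_range m n hm hn hnm
  · intro m n hm hn hnm
    exact Vale.Agent.P048.H9.quad_range m n hm hn hnm
  · intro t m n ht hm hn hnm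
    exact Vale.Agent.P048.H9.eps_range t m n ht hm hn hnm
  · intro D m n hD hm hn hnm
    exact Vale.Agent.P048.H9.deg_range D m n hD hm hn hnm
  · intro m n hm hn h
    exact Vale.Agent.P048.H9.log_range m n hm hn h

end Vale.Agent.Results.P048.BeyondDiagonal
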