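import Vale.Agent.P048.H448.Defs
import Vale.Agent.P048.H448.Exc2

namespace Vale.Agent.Results.P048.ExtremalGraphs

open Vale.Agent.P048.H448

/-- For all `m ≥ n ≥ 3`: the identity `R(C_m, K_n) = (m - 1) (n - 1) + 1`, the structure of the
critical graphs (the graphs on `(m - 1) (n - 1)` vertices with no `C_m` and no independent set of
`n` vertices), their numbers of edges, and the star-critical Ramsey number of `C_m` versus `K_n`,
each with the exact set of exceptional pairs. -/
theorem result (m n : ℕ) (hn : 3 ≤ n) (hnm : n ≤ m) :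
    -- (1) the identity `R(C_m, K_n) = (m - 1) (n - 1) + 1`
    (IsLeast {N : ℕ | ∀ G : SimpleGraph (Fin N),
      (SimpleGraph.cycleGraph m).IsContained G ∨ ∃ s : Finset (Fin N), G.IsNIndepSet n s}
      ((m - 1) * (n - 1) + 1) ↔ ¬ (m = 3 ∧ n = 3)) ∧
    -- (2) the critical graphs are exactly the standard ones
    ((∀ G : SimpleGraph (Fin ((m - 1) * (n - 1))), IsCritical m n G ↔ IsStandard m n G) ↔
      ¬ (m = 3 ∧ n = 3) ∧ ¬ (m = 4 ∧ n = 4)) ∧
    -- (3) the numbers of edges of the critical graphs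
    ({e : ℕ | ∃ G : SimpleGraph (Fin ((m - 1) * (n - 1))), IsCritical m n G ∧
      G.edgeSet.ncard = e} =
      Set.Icc ((n - 1) * (m - 1).choose 2) ((n - 1) * (m - 1).choose 2 + (n - 1).choose 2) ↔
      ¬ (m = 3 ∧ n = 3) ∧ ¬ (m = 4 ∧ n = 4)) ∧
    -- (4) the star-critical number
    (IsLeast {k : ℕ | Arrows (starComplete ((m - 1) * (n - 1)) k) m n} ((m - 1) * (n - 2) + 2) ↔
      ¬ (m = 3 ∧ n = 3) ∧ ¬ (m = 4 ∧ n = 4)) := by
  refine ⟨⟨?_, ?_⟩, structure_iff m n hn hnm, edges_iff m n hn hnm, star_critical_iff m n hn hnm⟩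
  · rintro h ⟨rfl, rfl⟩
    exact Vale.Agent.P048.not_three_three h
  · intro h
    exact Vale.Agent.P048.all_range m n (by omega) hnm (by omega)

end Vale.Agent.Results.P048.ExtremalGraphs
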