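import Vale.Agent.P048.H293.Full

namespace Vale.Agent.Results.P048.TwoRegular

open Vale.Agent.P048.H293 Finset

/-- (1) The identity `R(C_m, K_n) = (m - 1) (n - 1) + 1` holds for all pairs `m ≥ n ≥ 3` except
`(3, 3)`.
(2) The exact Ramsey number versus `K_n` of every disjoint union of cycles of length at least `n`:
for `n ≥ 2` and `m_0 ≥ m_1 ≥ ⋯ ≥ m_{t-1} ≥ max (n, 3)`,
`R(C_{m_0} ∪ ⋯ ∪ C_{m_{t-1}}, K_n) = max_i ((n - 1) (m_i - 1) + 1 + ∑_{j < i} m_j)`,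
with the single exception `R(C_3, K_3)`.
(3) The case of `t` equal cycles in closed form. -/
theorem result :
    (∀ m n : ℕ, 3 ≤ n → n ≤ m →
      (IsLeast {N : ℕ | ∀ G : SimpleGraph (Fin N),
        (SimpleGraph.cycleGraph m).IsContained G ∨ ∃ s : Finset (Fin N), G.IsNIndepSet n s}
        ((m - 1) * (n - 1) + 1) ↔ ¬ (m = 3 ∧ n = 3))) ∧
    (∀ (n t : ℕ), 2 ≤ n → ∀ m : Fin t → ℕ, Antitone m → (∀ i, n ≤ m i ∧ 3 ≤ m i) →
      (IsLeast {N : ℕ | ∀ G : SimpleGraph (Fin N),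
        (cycleUnion m).IsContained G ∨ ∃ s : Finset (Fin N), G.IsNIndepSet n s}
        (Finset.univ.sup fun i : Fin t =>
          (n - 1) * (m i - 1) + 1 + ∑ j ∈ Finset.Iio i, m j) ↔
        ¬ (n = 3 ∧ t = 1 ∧ ∀ i, m i = 3))) ∧
    (∀ (n t m : ℕ), 2 ≤ n → 1 ≤ t → n ≤ m → 3 ≤ m →
      (IsLeast {N : ℕ | ∀ G : SimpleGraph (Fin N),
        (cycleUnion fun _ : Fin t => m).IsContained G ∨ ∃ s : Finset (Fin N), G.IsNIndepSet n s}
        ((m - 1) * (n - 1) + 1 + (t - 1) * m) ↔ ¬ (n = 3 ∧ t = 1 ∧ m = 3))) := by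
  refine ⟨?_, ?_, ?_⟩
  · intro m n hn hnm
    constructor
    · rintro h ⟨rfl, rfl⟩
      exact Vale.Agent.P048.not_three_three h
    · intro h
      exact Vale.Agent.P048.all_range m n (by omega) hnm (by omega)
  · intro n t hn m hanti hm
    exact ramsey_full n t hn m hanti hm
  · intro n t m hn ht hnm hm
    exact ramsey_copies_full n t m hn ht hnm hm

end Vale.Agent.Results.P048.TwoRegular
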